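/-
Row 324 (S0582), PDE core: definitions.     Chief architect: helper232.     Blueprint: origin/helper232:docs/R324_blueprint.md, section 7.

Blow-up time T = 0,  Λ = -t,  λ = Λ^γ,  γ = 8/α,  τ = -log Λ.   y ∈ [-1,1] height on S^(q+1),  X = 1-y²,  y = cos ϑ,  tt = -X ∂_y = sin ϑ ∂_ϑ.
Background   ḡ = dϑ²/Z + X g_{S^q} + e^w g_{S²},   1/Z = 1 + X B,   known gauge field  X W ∂_y          (`Bg` = (B, w, W)).
Metric       g = e^{h₁} dϑ²/Z + e^{h₂} X g_{S^q} + e^{w+h₃} g_{S²},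
smooth unknowns  U = (U 0, U 1, U 2) = (σ, h₃, b):    h₁ = σ + q/(q+1) X b,   h₂ = σ - 1/(q+1) X b     (β := h₁ - h₂ = X b).
Ricci-DeTurck flow (reference metric ḡ(t)) + Lie derivative of X W ∂_y:        ∂_t U = Rhs(U) - Res          (`NLU`).
All formulas of this file were checked numerically (Taylor jets) against `rfA, rfB, rfC` of R324/Reduced.lean.
-/
import Claimed.Agent.R324.Reduced
import Claimed.Agent.R324.Bohm.Defs

set_option autoImplicit false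

namespace Claimed.Agent.R324.Core

open Set Filter Topology MeasureTheory
open scoped ContDiff

noncomputable section

/-! ## 0. Calculus -/

/-- functions of `(t,y)`. -/
abbrev Fn := ℝ × ℝ → ℝ

/-- triples `(σ, h₃, b)` of functions of `(t,y)`. -/
abbrev Tri := Fin 3 → ℝ × ℝ → ℝ

/-- `X = 1 - y²`. -/
def Xf (y : ℝ) : ℝ := 1 - y ^ 2

/-- `∂_y`. -/
def dY (f : Fn) : Fn := fun p => deriv (fun z => f (p.1, z)) p.2

/-- `∂_t`. -/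
def dT (f : Fn) : Fn := fun p => deriv (fun s => f (s, p.2)) p.1

/-- smooth on `(-∞,0) × ℝ`. -/
def Sm (f : Fn) : Prop := ContDiffOn ℝ ∞ f (Iio (0 : ℝ) ×ˢ (univ : Set ℝ))

/-- slice at time `t`. -/
def sl (f : Fn) (t : ℝ) : ℝ → ℝ := fun y => f (t, y)

/-- slice of a triple. -/
def slT (U : Tri) (t : ℝ) : Fin 3 → ℝ → ℝ := fun j y => U j (t, y)

/-- `tt f = -X f'` on functions of `y`. -/
def tt (f : ℝ → ℝ) (y : ℝ) : ℝ := -(1 - y ^ 2) * deriv f y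

/-- `𝒟 f = X f'' - y f' = ∂_ϑ² f`. -/
def DD (f : Fn) : Fn := fun p => Xf p.2 * dY (dY f) p - p.2 * dY f p

/-- `Φ₁(s) = (1 - e^{-s})/s`. -/
def Ph1 (s : ℝ) : ℝ := ∫ r in (0 : ℝ)..1, Real.exp (-s * r)

/-- `Φ₂(s) = (s - 1 + e^{-s})/s²`. -/
def Ph2 (s : ℝ) : ℝ := ∫ r in (0 : ℝ)..1, (1 - r) * Real.exp (-s * r)

/-- `𝕀[f] = ∫_0^π f(cos ϑ) dϑ`.   Rule: `𝕀[F · tt G] = - 𝕀[(tt F + y F) G]`, no boundary terms. -/
def II (f : ℝ → ℝ) : ℝ := ∫ ϑ in (0 : ℝ)..Real.pi, f (Real.cos ϑ)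

/-- `τ(t) = - log (-t)`. -/
def tauOf (t : ℝ) : ℝ := - Real.log (-t)

/-- `t(τ) = - exp (-τ)`. -/
def tOf (τ : ℝ) : ℝ := - Real.exp (-τ)

/-! ## 1. Backgrounds and the coefficients of the linearisation -/

/-- a background `(B, w, W)`. -/
structure Bg where
  B : ℝ × ℝ → ℝ
  w : ℝ × ℝ → ℝ
  W : ℝ × ℝ → ℝ

namespace Bg

variable (g : Bg)

/-- `Z = 1/(1 + X B)`. -/
def Z : Fn := fun p => 1 / (1 + Xf p.2 * g.B p)

/-- `𝖽 = (X B)'`   (`Z' = -Z² 𝖽`). -/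
def dd : Fn := dY (fun p => Xf p.2 * g.B p)

/-- `B'`. -/
def Bp : Fn := dY g.B

/-- `w'`. -/
def wp : Fn := dY g.w

/-- `w''`. -/
def wpp : Fn := dY (dY g.w)

/-- `a' = Z 𝖽`, `a = -log Z`. -/
def ap : Fn := fun p => g.Z p * g.dd p

/-- `a''`. -/
def app : Fn := dY g.ap

/-- `𝗐₁ = Z'/2 + Z w' + W`;  the drift of the linearisation is `-(d_j y Z - X 𝗐₁) ∂_y`. -/
def w1 : Fn := fun p => -(g.Z p) ^ 2 * g.dd p / 2 + g.Z p * g.wp p + g.W p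

/-- `𝗐₀ = q y Z - X 𝗐₁`. -/
def w0 (q : ℝ) : Fn := fun p => q * p.2 * g.Z p - Xf p.2 * g.w1 p

/-- `b̂ = (q-1) y Z - X 𝗐₁`:   `X L = Z tt² + b̂ tt + 𝐦`. -/
def bh (q : ℝ) : Fn := fun p => (q - 1) * p.2 * g.Z p - Xf p.2 * g.w1 p

/-- zeroth order coefficients of the linearisation in the unknowns `(σ, h₃, b)`
(the entries `0 2` and `1 2` are still multiplied by `X` in `Lop`). -/
def cf (q : ℝ) : Fin 3 → Fin 3 → Fn := fun j k p =>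
  let y := p.2
  let X := Xf p.2
  let Z := g.Z p
  let d := g.dd p
  let B := g.B p
  let w' := g.wp p
  let w'' := g.wpp p
  (![![(-Z * X * w' ^ 2 - 2 * q * y * Z ^ 2 * d + 2 * q * Z * ((q - 1) * B + q + 1)) / (q + 1),
      Z * ((2 * q + 2) * y * w' + X * Z * d * w' - 2 * X * w'') / (q + 1),
      q / (q + 1) * Z * (-X * w' ^ 2 - (q - 1) * y * Z * d - 2 * (q - 1) * B) / (q + 1)],
    ![Z * ((q + 1) * y * w' + X * Z * d * w' / 2 - X * w''),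
      2 * Real.exp (-g.w p) - Z * X * w' ^ 2,
      q / (q + 1) * X * Z * (Z * d * w' / 2 - w'')],
    ![-Z * w' ^ 2 - (q - 1) * Z ^ 2 * (y * g.Bp p + 2 * B * (B + 1)),
      Z * (-2 * w'' + Z * d * w'),
      (Z * (2 * (q - 1) * B - 4 * (q + 1)) - q * Z * X * w' ^ 2 + 2 * q * y * Z ^ 2 * d) / (q + 1)
        - 2 * y * g.w1 p]] : Fin 3 → Fin 3 → ℝ) j k

end Bg

/-- dimensions `q+1, q+1, q+5`. -/
def dimJ (q : ℝ) (j : Fin 3) : ℝ := if j = 2 then q + 5 else q + 1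

/-- the factor `X` of the coupling of `b` into `σ, h₃`. -/
def facJ (j k : Fin 3) (y : ℝ) : ℝ := if k = 2 ∧ j ≠ 2 then 1 - y ^ 2 else 1

/-- **the linearisation** at the background `g`, in the unknowns `(σ, h₃, b)`
(`= e2Loc q g.Z (fun _ => g.w1) (g.cf q)` of R324/Engine2.lean). -/
def Lop (q : ℝ) (g : Bg) (U : Tri) : Tri := fun j p =>
  g.Z p * Xf p.2 * dY (dY (U j)) p + (-(dimJ q j) * p.2 * g.Z p + Xf p.2 * g.w1 p) * dY (U j) p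
    + ∑ k, facJ j k p.2 * g.cf q j k p * U k p

/-! ## 2. The nonlinear system -/

/-- `β = X b`. -/
def beF (U : Tri) : Fn := fun p => Xf p.2 * U 2 p

/-- `h₁ = σ + q/(q+1) X b`. -/
def h1F (q : ℝ) (U : Tri) : Fn := fun p => U 0 p + q / (q + 1) * (Xf p.2 * U 2 p)

/-- `h₂ = σ - 1/(q+1) X b`. -/
def h2F (q : ℝ) (U : Tri) : Fn := fun p => U 0 p - 1 / (q + 1) * (Xf p.2 * U 2 p)

/-- `e_i = exp (-h_i)`. -/
def e1F (q : ℝ) (U : Tri) : Fn := fun p => Real.exp (-h1F q U p)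
def e2F (q : ℝ) (U : Tri) : Fn := fun p => Real.exp (-h2F q U p)
def e3F (U : Tri) : Fn := fun p => Real.exp (-U 1 p)

/-- `(e₂ - e₁)/X = b e₂ Φ₁(X b)`. -/
def bPh (q : ℝ) (U : Tri) : Fn := fun p => U 2 p * e2F q U p * Ph1 (beF U p)

/-- `𝗀 = (e₁-1) Z² 𝖽/2 - Z w' (e₃-1)`. -/
def ggF (q : ℝ) (g : Bg) (U : Tri) : Fn := fun p =>
  (e1F q U p - 1) * (g.Z p) ^ 2 * g.dd p / 2 - g.Z p * g.wp p * (e3F U p - 1)

/-- `G = X 𝗀 + q y Z (e₂-1)`. -/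
def GGF (q : ℝ) (g : Bg) (U : Tri) : Fn := fun p =>
  Xf p.2 * ggF q g U p + q * p.2 * g.Z p * (e2F q U p - 1)

/-- right hand side of the equation of `h₃`. -/
def R3F (q : ℝ) (g : Bg) (U : Tri) : Fn := fun p =>
  g.Z p * e1F q U p * DD (U 1) p - (g.w0 q p + GGF q g U p) * dY (U 1) p
    + g.Z p * (e1F q U p - 1) * DD g.w p - 2 * Real.exp (-g.w p) * (e3F U p - 1) - GGF q g U p * g.wp p

/-- right hand side of the equation of `h₂`. -/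
def R2F (q : ℝ) (g : Bg) (U : Tri) : Fn := fun p =>
  g.Z p * e1F q U p * DD (h2F q U) p - (g.w0 q p + GGF q g U p) * dY (h2F q U) p
    + 2 * g.Z p * bPh q U p - g.Z p * (e2F q U p - 1) * (2 * (q - 1) * g.B p + 2 * q)
    + 2 * p.2 * ggF q g U p

/-- right hand side of the equation of `h₁`. -/
def R1F (q : ℝ) (g : Bg) (U : Tri) : Fn := fun p =>
  let X := Xf p.2
  let y := p.2
  g.Z p * e1F q U p * (DD (h1F q U) p - X * g.ap p * dY (h1F q U) p - X * (dY (h1F q U) p) ^ 2 / 2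
      - 2 * q * y * dY (h2F q U) p + q / 2 * X * (dY (h2F q U) p) ^ 2
      + 2 * X * g.wp p * dY (U 1) p + X * (dY (U 1) p) ^ 2)
    + g.Z p * (e1F q U p - 1) * (X * g.app p - y * g.ap p - X * (g.ap p) ^ 2 / 2 + X * (g.wp p) ^ 2)
    - 2 * q * y ^ 2 * g.Z p * bPh q U p - (g.w0 q p + GGF q g U p) * dY (h1F q U) p
    - GGF q g U p * g.ap p - 2 * dY (GGF q g U) p - 2 * y * ggF q g U p

/-- right hand side of the equation of `b`  (`= (R1F - R2F)/X` for `X ≠ 0`). -/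
def RbF (q : ℝ) (g : Bg) (U : Tri) : Fn := fun p =>
  let X := Xf p.2
  let y := p.2
  let b := U 2 p
  g.Z p * e1F q U p * (X * dY (dY (U 2)) p - 5 * y * dY (U 2) p - 2 * b)
    - (g.w0 q p + GGF q g U p) * dY (U 2) p + 2 * y * b * (ggF q g U p - g.w1 p)
    + g.Z p * b * e2F q U p * (-2 - 2 * y ^ 2 * b * Ph1 (beF U p) + (2 * q * y ^ 2 + 2) * b * Ph2 (beF U p))
    + g.Z p * e1F q U p * (-g.ap p * dY (h1F q U) p - (dY (h1F q U) p) ^ 2 / 2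
        + q / 2 * (dY (h2F q U) p) ^ 2 + 2 * g.wp p * dY (U 1) p + (dY (U 1) p) ^ 2)
    + 2 * q * y * g.Z p * bPh q U p * dY (h2F q U) p
    + g.Z p * (e1F q U p - 1) * (g.app p - (g.ap p) ^ 2 / 2 + (g.wp p) ^ 2)
    + (q - 1) * (g.Z p) ^ 2 * (2 * g.B p * (g.B p + 1) + y * g.Bp p) * (e2F q U p - 1)
    + y * (g.Z p) ^ 2 * g.dd p * bPh q U p - ggF q g U p * g.Z p * g.dd p - 2 * dY (ggF q g U) p

/-- **the nonlinear right hand side** in the unknowns `(σ, h₃, b)`. -/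
def Rhs (q : ℝ) (g : Bg) (U : Tri) : Tri :=
  ![fun p => (R1F q g U p + q * R2F q g U p) / (q + 1), R3F q g U, RbF q g U]

/-! ### the residual of the background -/

/-- `rfA + Lie` of the background. -/
def GAF (q : ℝ) (g : Bg) : Fn := fun p =>
  let X := Xf p.2
  let y := p.2
  g.Z p * (-2 * q + 2 * DD g.w p + X * (g.wp p) ^ 2) + (g.Z p) ^ 2 * g.dd p * (q * y - X * g.wp p)
    + X * g.W p * g.ap p + 2 * X * dY g.W p - 2 * y * g.W p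

/-- `rfB + Lie` of the background. -/
def GBF (q : ℝ) (g : Bg) : Fn := fun p =>
  -(2 * (q - 1) * g.B p * g.Z p + 2 * q * g.Z p - p.2 * (g.Z p) ^ 2 * g.dd p
    + 2 * p.2 * g.Z p * g.wp p + 2 * p.2 * g.W p)

/-- `rfC + Lie` of the background. -/
def GCF (q : ℝ) (g : Bg) : Fn := fun p =>
  let X := Xf p.2
  let y := p.2
  g.Z p * (DD g.w p - X * g.ap p * g.wp p / 2 - q * y * g.wp p + X * (g.wp p) ^ 2)
    - 2 * Real.exp (-g.w p) + X * g.W p * g.wp p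

/-- `(GAF - GBF)/X`. -/
def GbF (q : ℝ) (g : Bg) : Fn := fun p =>
  2 * g.Z p * g.wpp p + g.Z p * (g.wp p) ^ 2 - (g.Z p) ^ 2 * g.dd p * g.wp p + g.W p * g.ap p
    + 2 * dY g.W p + (q - 1) * (g.Z p) ^ 2 * (2 * g.B p * (g.B p + 1) + p.2 * g.Bp p)

/-- **the residual** `E` of the background, in the components `(σ, h₃, b)`:
`E₁ = ∂_t a - GAF = X Z ∂_t B - GAF`, `E₂ = - GBF`, `E₃ = ∂_t w - GCF`. -/
def Res (q : ℝ) (g : Bg) : Tri :=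
  ![fun p => (Xf p.2 * g.Z p * dT g.B p - GAF q g p - q * GBF q g p) / (q + 1),
    fun p => dT g.w p - GCF q g p,
    fun p => g.Z p * dT g.B p - GbF q g p]

/-- the nonlinear system on `(t₀,0) × [-1,1]`. -/
def NLU (q : ℝ) (g : Bg) (t₀ : ℝ) (U : Tri) : Prop :=
  ∀ j, ∀ t ∈ Ioo t₀ 0, ∀ y ∈ Icc (-1 : ℝ) 1, dT (U j) (t, y) = Rhs q g U j (t, y) - Res q g j (t, y)

/-! ### the metric -/

/-- `A = e^{h₂}`. -/
def mA (q : ℝ) (U : Tri) : Fn := fun p => Real.exp (h2F q U p)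

/-- `B = e^{h₂} (b Φ₁(-X b) + e^{X b} B̄)`   (so that `A + X B = e^{h₁}/Z`). -/
def mB (q : ℝ) (g : Bg) (U : Tri) : Fn := fun p =>
  Real.exp (h2F q U p) * (U 2 p * Ph1 (-beF U p) + Real.exp (beF U p) * g.B p)

/-- `C = e^{w + h₃}`. -/
def mC (g : Bg) (U : Tri) : Fn := fun p => Real.exp (g.w p + U 1 p)

/-- the total gauge field `W = W̄ - 𝗐_DT/X`. -/
def mW (q : ℝ) (g : Bg) (U : Tri) : Fn := fun p =>
  g.W p - (g.Z p * e1F q U p * (-dY (h1F q U) p / 2 + q / 2 * dY (h2F q U) p + dY (U 1) p)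
    + q * p.2 * g.Z p * bPh q U p - g.Z p * g.wp p * (e3F U p - e1F q U p))

/-! ## 3. Parameters, cut-offs, reference background -/

/-- `α`. -/
def alF (q : ℝ) : ℝ := bAl q

/-- `γ = 8/α`. -/
def gaF (q : ℝ) : ℝ := 8 / bAl q

/-- `z₀ = (q-1)/(q+1)`. -/
def z0F (q : ℝ) : ℝ := (q - 1) / (q + 1)

/-- `λ² = Λ^{2γ}`. -/
def lam2 (q t : ℝ) : ℝ := (-t) ^ (2 * gaF q)

/-- cut-off in `y`:  `= 1` for `y ≥ 19/20`,  `= 0` for `y ≤ 3/4`. -/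
def psi1 (y : ℝ) : ℝ := Real.smoothTransition (5 * y - 15 / 4)

/-- cut-off of the cone zone: `= 1` for `2 Λ^{3/2} ≤ X ≤ Λ^{1/2}` (and `y ≥ 19/20`), `= 0` for `X ≤ Λ^{3/2}` or `X ≥ 2 Λ^{1/2}`. -/
def chiC (p : ℝ × ℝ) : ℝ :=
  psi1 p.2 * Real.smoothTransition (Xf p.2 / ((-p.1) * Real.sqrt (-p.1)) - 1)
    * Real.smoothTransition (2 - Xf p.2 / Real.sqrt (-p.1))

/-- the exact cone `z = z₀`, `e^w = X/(q-1)`, `W = 0` (singular at `X = 0`; only used on the support of `chiC`). -/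
def bgCone (q : ℝ) : Bg where
  B := fun p => (p.2 ^ 2 / z0F q - 1) / Xf p.2
  w := fun p => Real.log (Xf p.2 / (q - 1))
  W := fun _ => 0

/-- **the reference background**: `g`, replaced by the exact cone in the zone `2 Λ^{3/2} ≤ X ≤ Λ^{1/2}`.
The reference operator is `Lop q (bgR q g)`. -/
def bgR (q : ℝ) (g : Bg) : Bg where
  B := fun p => (1 - chiC p) * g.B p + chiC p * (bgCone q).B p
  w := fun p => (1 - chiC p) * g.w p + chiC p * (bgCone q).w p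
  W := fun p => (1 - chiC p) * g.W p

/-- the reference operator `L̃`. -/
def Lt (q : ℝ) (g : Bg) (U : Tri) : Tri := Lop q (bgR q g) U

/-- the "nonlinear" term `NN(U) = Rhs(U) - L̃ U`  (it contains the small linear term `(L - L̃) U`). -/
def NN (q : ℝ) (g : Bg) (U : Tri) : Tri := fun j p => Rhs q g U j p - Lt q g U j p

/-! ## 4. Weights and norms -/

/-- `ς(y)`: `= y` for `y ≥ 1/2`, `= 1/4` for `y ≤ 0`, values in `[0,1/2]` for `y ≤ 1/2`. -/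
def sgY (y : ℝ) : ℝ := 1 / 4 + (y - 1 / 4) * Real.smoothTransition (2 * y)

/-- `X̃ = 1 - ς²`  (`= X` for `y ≥ 1/2`, in `[3/4,1]` for `y ≤ 1/2`). -/
def Xt (y : ℝ) : ℝ := 1 - (sgY y) ^ 2

/-- `ℓ² = (q-1) λ²/100`. -/
def ell2 (q t : ℝ) : ℝ := (q - 1) / 100 * lam2 q t

/-- `r̂² = ℓ² + X̃`. -/
def rh2 (q t y : ℝ) : ℝ := ell2 q t + Xt y

/-- `Θ = Λ + X̃`. -/
def Th (t y : ℝ) : ℝ := -t + Xt y

/-- the gauge function `𝔍 = Θ^8 r̂^{-α}`. -/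
def JJ (q t y : ℝ) : ℝ := (Th t y) ^ 8 * (rh2 q t y) ^ (-(alF q) / 2)

/-- light weights `(r̂²)^a ((1+Γ)Λ + X̃) Θ^{-M-1}`. -/
def wL (a M : ℕ) (q Γ t y : ℝ) : ℝ := (rh2 q t y) ^ a * ((1 + Γ) * (-t) + Xt y) / (Th t y) ^ (M + 1)

/-- heavy weights `(r̂²)^a Θ^{-M}`. -/
def wH (a M : ℕ) (q t y : ℝ) : ℝ := (rh2 q t y) ^ a / (Th t y) ^ M

/-- `|u|² = h₁² + q h₂² + 2 h₃² = (q+1) σ² + 2 h₃² + q/(q+1) (X b)²`. -/
def n2 (q : ℝ) (u : Fin 3 → ℝ → ℝ) (y : ℝ) : ℝ :=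
  (q + 1) * (u 0 y) ^ 2 + 2 * (u 1 y) ^ 2 + q / (q + 1) * ((1 - y ^ 2) * u 2 y) ^ 2

/-- `|tt u|²`. -/
def n2t (q : ℝ) (u : Fin 3 → ℝ → ℝ) (y : ℝ) : ℝ :=
  (q + 1) * (tt (u 0) y) ^ 2 + 2 * (tt (u 1) y) ^ 2
    + q / (q + 1) * (tt (fun z => (1 - z ^ 2) * u 2 z) y) ^ 2

/-- `E_V(u) = 𝕀[X V |u|²]`. -/
def En (q : ℝ) (V : ℝ → ℝ) (u : Fin 3 → ℝ → ℝ) : ℝ := II (fun y => (1 - y ^ 2) * V y * n2 q u y)

/-- `D_V(u) = 𝕀[V (|tt u|² + q |u|²)]`. -/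
def Di (q : ℝ) (V : ℝ → ℝ) (u : Fin 3 → ℝ → ℝ) : ℝ := II (fun y => V y * (n2t q u y + q * n2 q u y))

/-- light weights of the contraction: `V₀ = wL 2 30`, `V₁ = wL 4 30`. -/
def V0 (q Γ t : ℝ) : ℝ → ℝ := wL 2 30 q Γ t
def V1 (q Γ t : ℝ) : ℝ → ℝ := wL 4 30 q Γ t

def E0 (q : ℝ) (Γ : ℝ) (U : Tri) (t : ℝ) : ℝ := En q (V0 q Γ t) (slT U t)
def D0 (q : ℝ) (Γ : ℝ) (U : Tri) (t : ℝ) : ℝ := Di q (V0 q Γ t) (slT U t)
def E1 (q : ℝ) (g : Bg) (Γ : ℝ) (U : Tri) (t : ℝ) : ℝ := En q (V1 q Γ t) (slT (Lt q g U) t)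
def D1 (q : ℝ) (g : Bg) (Γ : ℝ) (U : Tri) (t : ℝ) : ℝ := Di q (V1 q Γ t) (slT (Lt q g U) t)

/-- density of the forcing norm. -/
def DY (q : ℝ) (Γ : ℝ) (S : Tri) (t : ℝ) : ℝ := Di q (V1 q Γ t) (slT S t)

/-- heavy energies  `EE_A = Λ^{34-7/2} E_{wH 2 34}`,  `EE_B = Λ^{52-9/2} E_{wH 3 52}`. -/
def EEA (q : ℝ) (U : Tri) (t : ℝ) : ℝ := (-t) ^ ((61 : ℝ) / 2) * En q (wH 2 34 q t) (slT U t)
def EEB (q : ℝ) (U : Tri) (t : ℝ) : ℝ := (-t) ^ ((95 : ℝ) / 2) * En q (wH 3 52 q t) (slT U t)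
def DDA (q : ℝ) (U : Tri) (t : ℝ) : ℝ := (-t) ^ ((61 : ℝ) / 2) * Di q (wH 2 34 q t) (slT U t)
def DDB (q : ℝ) (U : Tri) (t : ℝ) : ℝ := (-t) ^ ((95 : ℝ) / 2) * Di q (wH 3 52 q t) (slT U t)

/-- density of the heavy forcing norm  `Λ^{95/2 - 2η} 𝕀[X² wH_B |S|²]`. -/
def HY (q η : ℝ) (S : Tri) (t : ℝ) : ℝ :=
  (-t) ^ ((95 : ℝ) / 2 - 2 * η) * II (fun y => (1 - y ^ 2) ^ 2 * wH 3 52 q t y * n2 q (slT S t) y)

/-- `‖U‖_𝒳 ≤ R` on `(ts,0)`. -/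
structure XB (q : ℝ) (g : Bg) (Γ ts R : ℝ) (U : Tri) : Prop where
  e0 : ∀ t ∈ Ioo ts 0, E0 q Γ U t ≤ R ^ 2
  e1 : ∀ t ∈ Ioo ts 0, E1 q g Γ U t ≤ R ^ 2
  d0 : ∀ t ∈ Ioo ts 0, ∫ s in ts..t, D0 q Γ U s ≤ R ^ 2
  d1 : ∀ t ∈ Ioo ts 0, ∫ s in ts..t, D1 q g Γ U s ≤ R ^ 2

/-- `‖S‖_𝒴 ≤ R` on `(ts,0)`. -/
structure YB (q Γ η ts R : ℝ) (S : Tri) : Prop where
  dy : ∀ t ∈ Ioo ts 0, ∫ s in ts..t, DY q Γ S s ≤ R ^ 2
  hy : ∀ t ∈ Ioo ts 0, ∫ s in ts..t, HY q η S s ≤ R ^ 2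

/-- hygiene: the on-demand equation lemmas of the definitions of this file are generated here. -/
theorem core_defs_hygiene : True := by
  have := @Xf.eq_1
  have := @dY.eq_1
  have := @dT.eq_1
  have := @Sm.eq_1
  have := @sl.eq_1
  have := @slT.eq_1
  have := @tt.eq_1
  have := @DD.eq_1
  have := @Ph1.eq_1
  have := @Ph2.eq_1
  have := @II.eq_1
  have := @tauOf.eq_1
  have := @tOf.eq_1
  have := @Bg.Z.eq_1
  have := @Bg.dd.eq_1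
  have := @Bg.Bp.eq_1
  have := @Bg.wp.eq_1
  have := @Bg.wpp.eq_1
  have := @Bg.ap.eq_1
  have := @Bg.app.eq_1
  have := @Bg.w1.eq_1
  have := @Bg.w0.eq_1
  have := @Bg.bh.eq_1
  have := @Bg.cf.eq_1
  have := @dimJ.eq_1
  have := @facJ.eq_1
  have := @Lop.eq_1
  have := @beF.eq_1
  have := @h1F.eq_1
  have := @h2F.eq_1
  have := @e1F.eq_1
  have := @e2F.eq_1
  have := @e3F.eq_1
  have := @bPh.eq_1
  have := @ggF.eq_1
  have := @GGF.eq_1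
  have := @R3F.eq_1
  have := @R2F.eq_1
  have := @R1F.eq_1
  have := @RbF.eq_1
  have := @Rhs.eq_1
  have := @GAF.eq_1
  have := @GBF.eq_1
  have := @GCF.eq_1
  have := @GbF.eq_1
  have := @Res.eq_1
  have := @NLU.eq_1
  have := @mA.eq_1
  have := @mB.eq_1
  have := @mC.eq_1
  have := @mW.eq_1
  have := @alF.eq_1
  have := @gaF.eq_1
  have := @z0F.eq_1
  have := @lam2.eq_1
  have := @psi1.eq_1
  have := @chiC.eq_1
  have := @bgCone.eq_1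
  have := @bgR.eq_1
  have := @Lt.eq_1
  have := @NN.eq_1
  have := @sgY.eq_1
  have := @Xt.eq_1
  have := @ell2.eq_1
  have := @rh2.eq_1
  have := @Th.eq_1
  have := @JJ.eq_1
  have := @wL.eq_1
  have := @wH.eq_1
  have := @n2.eq_1
  have := @n2t.eq_1
  have := @En.eq_1
  have := @Di.eq_1
  have := @V0.eq_1
  have := @V1.eq_1
  have := @E0.eq_1
  have := @D0.eq_1
  have := @E1.eq_1
  have := @D1.eq_1
  have := @DY.eq_1
  have := @EEA.eq_1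
  have := @EEB.eq_1
  have := @DDA.eq_1
  have := @DDB.eq_1
  have := @HY.eq_1
  trivial

end

end Claimed.Agent.R324.Core
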