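/-
Row 324 (S0582), PDE core: what the modules W, LD, NL, HI, CL may use about the background (`BgGood`).
Blueprint: origin/helper232:docs/R324_blueprint.md, section 7.2.     Owner of this file: the architect of AP (helper263), after helper232.
`BgGood q g` is PROVED for the approximate solution `g = bgA ..` by module AP.  New fields: ask the owner.
-/
import Claimed.Agent.R324.Core.Defs

set_option autoImplicit false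

namespace Claimed.Agent.R324.Core

open Set Filter Topology MeasureTheory
open scoped ContDiff

noncomputable section

/-- symbol class:  `|∂_y^j f| ≤ C ϱ r̂^{-2j}`, `j ≤ N`, on `[-Λ₀,0) × [-1,1]`. -/
def SymC (q Λ₀ C : ℝ) (N : ℕ) (ϱ : ℝ → ℝ → ℝ) (f : Fn) : Prop :=
  ∀ t ∈ Ico (-Λ₀) 0, ∀ y ∈ Icc (-1 : ℝ) 1, ∀ j ≤ N,
    |iteratedDeriv j (sl f t) y| ≤ C * ϱ t y / (rh2 q t y) ^ j

/-- `(tt + y) f`, the formal adjoint of `-tt` with respect to `𝕀`. -/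
def ttp (f : ℝ → ℝ) (y : ℝ) : ℝ := tt f y + y * f y

/-- the matrix `𝐦` of the tt-form  `X (L u)_i = Z tt² u_i + b̂ tt u_i + Σ_j 𝐦_ij u_j`,  `u = (σ, h₃, β)`. -/
def mF (q : ℝ) (g : Bg) : Fin 3 → Fin 3 → Fn := fun j k p =>
  let y := p.2
  let X := Xf p.2
  (![![X * g.cf q 0 0 p, X * g.cf q 0 1 p, X * g.cf q 0 2 p],
    ![X * g.cf q 1 0 p, X * g.cf q 1 1 p, X * g.cf q 1 2 p],
    ![X ^ 2 * g.cf q 2 0 p, X ^ 2 * g.cf q 2 1 p,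
      X * g.cf q 2 2 p - g.Z p * (4 * y ^ 2 - 2 * X) - 2 * y * g.bh q p]] : Fin 3 → Fin 3 → ℝ) j k

/-- the weights `κ = (q+1, 2, q/(q+1))` of `|u|²`. -/
def kapJ (q : ℝ) : Fin 3 → ℝ := ![q + 1, 2, q / (q + 1)]

/-- `|ξ|²_κ`. -/
def nk (q : ℝ) (ξ : Fin 3 → ℝ) : ℝ := ∑ i, kapJ q i * (ξ i) ^ 2

/-- `⟨𝐦 ξ, ξ⟩_κ`. -/
def quadM (q : ℝ) (g : Bg) (p : ℝ × ℝ) (ξ : Fin 3 → ℝ) : ℝ :=
  ∑ i, ∑ j, kapJ q i * mF q g i j p * ξ i * ξ j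

/-- the constant matrix of the cone. -/
def mCone (q : ℝ) : Fin 3 → Fin 3 → ℝ := fun i j =>
  z0F q * (![![4 * (q - 1) / (q + 1), -4 * (q - 1) / (q + 1), -8 * q / (q + 1) ^ 2],
    ![-2 * (q - 1), 2 * (q - 1), 4 * q / (q + 1)],
    ![-8, 8, -(2 * q + 6 - 8 / (q + 1))]] : Fin 3 → Fin 3 → ℝ) i j

/-- `𝔷_v = ½ (tt+y)² (v Z) - ½ (tt+y) (v b̂)`:
`𝕀[X v ⟨u, L u⟩] = - 𝕀[v Z |tt u|²] + 𝕀[𝔷_v |u|²] + 𝕀[v ⟨𝐦 u, u⟩]`. -/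
def zzF (q : ℝ) (g : Bg) (v : ℝ → ℝ) (t y : ℝ) : ℝ :=
  1 / 2 * ttp (ttp (fun z => v z * g.Z (t, z))) y - 1 / 2 * ttp (fun z => v z * g.bh q (t, z)) y

/-- smooth backgrounds. -/
structure BgSm (g : Bg) : Prop where
  smB : Sm g.B
  smw : Sm g.w
  smW : Sm g.W
  pos : ∀ t < 0, ∀ y : ℝ, 0 < 1 + Xf y * g.B (t, y)

/-- (A3) symbol bounds of a background. -/
def BgSym (q : ℝ) (g : Bg) : Prop := ∃ Λ₀ C : ℝ, 0 < Λ₀ ∧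
  SymC q Λ₀ C 8 (fun t y => 1 / rh2 q t y) g.B ∧ SymC q Λ₀ C 8 (fun t y => 1 / rh2 q t y) (dY g.w) ∧
  SymC q Λ₀ C 8 (fun t y => 1 / rh2 q t y) (fun p => Real.exp (-g.w p)) ∧
  SymC q Λ₀ C 8 (fun t y => 1 / Th t y) g.W ∧
  ∀ t ∈ Ico (-Λ₀) 0, ∀ y ∈ Icc (-1 : ℝ) 1, 1 / C ≤ 1 + Xf y * g.B (t, y)

/-- (A4) time derivatives, `i = 1, 2`. -/
def BgSymT (q : ℝ) (g : Bg) : Prop := ∃ Λ₀ C : ℝ, 0 < Λ₀ ∧ ∀ i : ℕ, 1 ≤ i → i ≤ 2 →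
  SymC q Λ₀ C 6 (fun t y => 1 / (rh2 q t y * (Th t y) ^ i)) (dT^[i] g.B) ∧
  SymC q Λ₀ C 6 (fun t y => 1 / (Th t y) ^ i) (dT^[i] g.w) ∧
  SymC q Λ₀ C 6 (fun t y => 1 / (Th t y) ^ (i + 1)) (dT^[i] g.W)

/-- (A5) pointwise coercivity, light weights `wL a M`; the core term is expressed through the heavy weight B. -/
def CoerL (q : ℝ) (g : Bg) (a M e : ℕ) : Prop :=
  ∀ c : ℝ, ∃ Γ₀ : ℝ, 0 ≤ Γ₀ ∧ ∀ Γ : ℝ, Γ₀ ≤ Γ → ∃ Kc Λ₀ : ℝ, 0 < Λ₀ ∧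
    ∀ t ∈ Ico (-Λ₀) 0, ∀ y ∈ Icc (-1 : ℝ) 1, ∀ ξ : Fin 3 → ℝ,
      (Xf y * deriv (fun s => wL a M q Γ s y) t + 2 * zzF q g (wL a M q Γ t) t y
          + c * Xf y * |dT g.Z (t, y)| * wL a M q Γ t y) * nk q ξ
        + 2 * wL a M q Γ t y * quadM q g (t, y) ξ
      ≤ -(q / 4) * wL a M q Γ t y * nk q ξ + Kc * (-t) ^ e * Xf y * wH 3 52 q t y * nk q ξ

/-- (A5) pointwise coercivity, heavy weights `wH a M` normalised by `Λ^ν`, rate `η₁ = 15`;  core `δ Λ ≤ X ≤ K Λ`, `y > 0`. -/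
def CoerH (q : ℝ) (g : Bg) (a M : ℕ) (ν : ℝ) : Prop :=
  ∃ δ K Kh Λ₀ : ℝ, 0 < δ ∧ δ < 1 ∧ 1 < K ∧ 0 < Λ₀ ∧
    ∀ t ∈ Ico (-Λ₀) 0, ∀ y ∈ Icc (-1 : ℝ) 1, ∀ ξ : Fin 3 → ℝ,
      (Xf y * deriv (fun s => wH a M q s y) t - (ν - 30) * (Xf y / (-t)) * wH a M q t y
          + 2 * zzF q g (wH a M q t) t y) * nk q ξ + 2 * wH a M q t y * quadM q g (t, y) ξ
      ≤ -(q / 4) * wH a M q t y * nk q ξ
        + (if 0 < y ∧ δ * (-t) ≤ Xf y ∧ Xf y ≤ K * (-t) then Kh * (Xf y / (-t)) * wH a M q t y * nk q ξ else 0)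

/-- (A5) static coercivity near the tip, weight `r̂⁴`. -/
def CoerS (q : ℝ) (g : Bg) : Prop :=
  ∃ δ Λ₀ : ℝ, 0 < δ ∧ 0 < Λ₀ ∧ ∀ t ∈ Ico (-Λ₀) 0, ∀ y ∈ Icc (0 : ℝ) 1, Xf y ≤ δ * (-t) →
    ∀ ξ : Fin 3 → ℝ,
      2 * zzF q g (fun z => (rh2 q t z) ^ 2) t y * nk q ξ + 2 * (rh2 q t y) ^ 2 * quadM q g (t, y) ξ
        ≤ -(q / 4) * (rh2 q t y) ^ 2 * nk q ξ

/-- (A6) `g` and the reference background differ by `O(𝔍)`. -/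
def BgClose (q : ℝ) (g : Bg) : Prop := ∃ Λ₀ C : ℝ, 0 < Λ₀ ∧
  SymC q Λ₀ C 6 (fun t y => JJ q t y / rh2 q t y) (fun p => g.B p - (bgR q g).B p) ∧
  SymC q Λ₀ C 6 (fun t y => JJ q t y) (fun p => g.w p - (bgR q g).w p) ∧
  SymC q Λ₀ C 6 (fun t y => JJ q t y / Th t y) (fun p => g.W p - (bgR q g).W p)

/-- (A7) the coefficients of `X L̃` in θ-form are `O(𝔍)`-close to those of the cone on `y ≥ 19/20`. -/
def BgDev (q : ℝ) (g : Bg) : Prop := ∃ Λ₀ C : ℝ, 0 < Λ₀ ∧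
  ∀ t ∈ Ico (-Λ₀) 0, ∀ y ∈ Icc (19 / 20 : ℝ) 1, ∀ j ≤ 2,
    |(tt^[j] (fun z => z ^ 2 * g.Z (t, z) - z0F q)) y| ≤ C * JJ q t y ∧
    |(tt^[j] (fun z => z * g.bh q (t, z) - Xf z * g.Z (t, z) - (q - 1))) y| ≤ C * JJ q t y ∧
    ∀ i k, |(tt^[j] (fun z => mF q g i k (t, z) - mCone q i k)) y| ≤ C * JJ q t y

/-- (A8) the residual:  `|tt^j ∂_t^i E| ≤ C 𝔍² Θ^{-1-i}` for the components `(E_σ, E₃, X E_b)`. -/
def BgRes (q : ℝ) (g : Bg) : Prop := ∃ Λ₀ C : ℝ, 0 < Λ₀ ∧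
  ∀ t ∈ Ico (-Λ₀) 0, ∀ y ∈ Icc (-1 : ℝ) 1, ∀ i ≤ 1, ∀ j ≤ 2,
    |(tt^[j] (sl (dT^[i] (Res q g 0)) t)) y| ≤ C * (JJ q t y) ^ 2 / (Th t y) ^ (1 + i) ∧
    |(tt^[j] (sl (dT^[i] (Res q g 1)) t)) y| ≤ C * (JJ q t y) ^ 2 / (Th t y) ^ (1 + i) ∧
    |(tt^[j] (fun z => Xf z * dT^[i] (Res q g 2) (t, z))) y| ≤ C * (JJ q t y) ^ 2 / (Th t y) ^ (1 + i)

/-- (A11) EXPLICIT bounds of the background near the north pole (constants independent of `q`), needed by the barrier arguments of CL.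
`X w' = - tt w`, `X a' = X Z 𝖽 = - tt a`.   On the tip side, `tt w = y Q`, `tt a = - y θz/z - 2X/y`, and the last expression is `y² (J_a - Q J)/2`. -/
def BgCL (q : ℝ) (g : Bg) : Prop := ∃ Λ₀ y₁ : ℝ, 0 < Λ₀ ∧ 19 / 20 ≤ y₁ ∧ y₁ < 1 ∧
  ∀ t ∈ Ico (-Λ₀) 0, ∀ y ∈ Icc y₁ 1,
    1 / 2 ≤ g.Z (t, y) ∧ g.Z (t, y) ≤ 2 ∧
    |Xf y * g.wp (t, y)| ≤ 4 * (Xf y / (ell2 q t + Xf y)) ∧
    |Xf y * g.ap (t, y)| ≤ 1 ∧
    -3 * (Xf y / (ell2 q t + Xf y)) ≤ Xf y - y * (Xf y * g.ap (t, y)) / 2 + y * (Xf y * g.wp (t, y))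
      + (Xf y * g.wp (t, y)) ^ 2 / 2

/-- **everything the PDE modules use about the background.** -/
structure BgGood (q : ℝ) (g : Bg) : Prop where
  sm : BgSm g
  /-- (A2) round `S^(q+1) × S²` away from the north pole -/
  out : ∀ t < 0, ∀ y ≤ (3 / 4 : ℝ), g.B (t, y) = 0 ∧ g.w (t, y) = 0 ∧ g.W (t, y) = 0
  sym : BgSym q g
  symR : BgSym q (bgR q g)
  symT : BgSymT q g
  symTR : BgSymT q (bgR q g)
  /-- sharper bounds of the time derivative and of the gauge field of `g` itself (CL) -/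
  symJ : ∃ Λ₀ C : ℝ, 0 < Λ₀ ∧ SymC q Λ₀ C 6 (fun t y => JJ q t y / Th t y) (dT g.w) ∧
    SymC q Λ₀ C 6 (fun t y => JJ q t y / (rh2 q t y * Th t y)) (dT g.B) ∧
    SymC q Λ₀ C 6 (fun t y => JJ q t y / Th t y) g.W
  coerL0 : CoerL q (bgR q g) 2 30 20
  coerL1 : CoerL q (bgR q g) 4 30 22
  coerL0' : CoerL q (bgR q g) 2 28 22
  coerL1' : CoerL q (bgR q g) 4 28 24
  coerHA : CoerH q (bgR q g) 2 34 (61 / 2)
  coerHB : CoerH q (bgR q g) 3 52 (95 / 2)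
  coerS : CoerS q (bgR q g)
  close : BgClose q g
  dev : BgDev q (bgR q g)
  res : BgRes q g
  /-- (A10) the `S²` fibre over the north pole has radius `λ` -/
  tip : ∀ t < 0, g.w (t, 1) = 2 * gaF q * Real.log (-t)
  /-- (A11) explicit bounds near the north pole (CL) -/
  cl : BgCL q g

/-- hygiene. -/
theorem core_bgd_hygiene : True := by
  have := @SymC.eq_1
  have := @ttp.eq_1
  have := @mF.eq_1
  have := @kapJ.eq_1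
  have := @nk.eq_1
  have := @quadM.eq_1
  have := @mCone.eq_1
  have := @zzF.eq_1
  have := @BgSym.eq_1
  have := @BgSymT.eq_1
  have := @CoerL.eq_1
  have := @CoerH.eq_1
  have := @CoerS.eq_1
  have := @BgClose.eq_1
  have := @BgDev.eq_1
  have := @BgRes.eq_1
  have := @BgCL.eq_1
  trivial

end

end Claimed.Agent.R324.Core
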