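/-
Row 324 (S0582), PDE core: definitions shared by the modules NL (iteration), HI (regularity of the limit), CL (conclusion):
`thetaC`, `Iter`.      Port of R325/Core/NonlinDefs.lean.      It does NOT import Core/Linear.lean.
-/
import Claimed.Agent.R324.Core.Bgd

set_option autoImplicit false

namespace Claimed.Agent.R324.Core

open Set Filter Topology MeasureTheory
open scoped ContDiff

/-- time cut-off: `0` for `τ ≤ τc`, `1` for `τ ≥ τc + 1`. -/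
noncomputable def thetaC (τc t : ℝ) : ℝ := Real.smoothTransition (tauOf t - τc)

/-- the sequence of iterates:   `∂_t U_{k+1} = L̃ U_{k+1} + θ (NN(U_k) - Res) + Σ β_{k,i}(τ) Ac_i`. -/
structure Iter (q : ℝ) (g : Bg) (Γ ε τs Δ : ℝ) (N : ℕ) (Ac : Fin N → Tri)
    (U : ℕ → Tri) (β : ℕ → ℝ → EuclideanSpace ℝ (Fin N)) : Prop where
  sm : ∀ k j, Sm (U k j)
  zero : ∀ k j, ∀ t ≤ tOf τs, ∀ y ∈ Icc (-1 : ℝ) 1, U k j (t, y) = 0
  u0 : ∀ j p, U 0 j p = 0
  eq : ∀ k j, ∀ t < 0, ∀ y ∈ Icc (-1 : ℝ) 1,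
    dT (U (k + 1) j) (t, y) = Lt q g (U (k + 1)) j (t, y)
      + thetaC (τs + Δ) t * (NN q g (U k) j (t, y) - Res q g j (t, y))
      + ∑ i, β k (tauOf t) i * Ac i j (t, y)
  xb : ∀ k, XB q g Γ (tOf τs) ε (U k)
  xbd : ∀ k, XB q g Γ (tOf τs) (ε / 2 ^ k) (fun j p => U (k + 1) j p - U k j p)
  βsm : ∀ k, ContDiff ℝ ∞ (β k)
  βsupp : ∀ k τ, τ ≤ τs ∨ τs + Δ ≤ τ → β k τ = 0
  βbd : ∃ Cβ : ℕ → ℝ, ∀ k l τ, ‖iteratedDeriv l (β k) τ‖ ≤ Cβ l ∧
    ‖iteratedDeriv l (fun s => β (k + 1) s - β k s) τ‖ ≤ Cβ l / 2 ^ k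

/-- hygiene: the on-demand equation lemmas of the definitions of this file are generated here. -/
theorem core_nldefs_hygiene : True := by
  have := @thetaC.eq_1
  trivial

end Claimed.Agent.R324.Core
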