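/-
Row 324 (S0582), PDE core: the two statements by which the modules AP (7.2) and PR (7.1) enter the final assembly.
Owners: `exists_bgGood` helper263 (AP),  `nlu_to_gf` helper489 (PR4).   Replace the `sorry` by a reference to your module
(add the import here); do not change the statements.
-/
import Claimed.Agent.R324.Core.Bgd
import Claimed.Agent.R324.Core.PR.GF
import Claimed.Agent.R324.Core.AP.Main

set_option autoImplicit false

namespace Claimed.Agent.R324.Core

open Set Filter Topology MeasureTheory
open scoped ContDiff

/-- Module AP: the approximate solution built from Bohm's profile is a good background. -/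
theorem exists_bgGood (q : ℕ) (hq : Odd q) (hq6 : 10 ^ 6 ≤ q) : ∃ g : Bg, BgGood q g :=
  ap_exists_bgGood q hq6

/-- Module PR (PR4): a smooth solution of the nonlinear system is a gauged reduced Ricci flow. -/
theorem nlu_to_gf (q : ℕ) (hq : 1 ≤ q) (g : Bg) (hg : BgSm g) (U : Tri) (hU : ∀ j, Sm (U j)) (t₀ : ℝ)
    (ht₀ : t₀ < 0) (h : NLU q g t₀ U) :
    RedGF q t₀ 0 (mA q U) (mB q g U) (mC g U) (mW q g U) :=
  pr_nlu_to_gf q g hg U hU t₀ ht₀ h

end Claimed.Agent.R324.Core
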