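/-
Row 324 (S0582), PDE core, module LD: the linear equation  ∂_t U = L̃ U + S   (`Lt q g`), solution operator with control.
Blueprint: origin/helper232:docs/R324_blueprint.md, section 7.4.      Port of R325/Core/Linear.lean.
-/
import Claimed.Agent.R324.Core.Bgd
import Claimed.Agent.R324.Engine2
import Claimed.Agent.R325.Pk29
import Claimed.Agent.R324.Core.LD.Assembly

set_option autoImplicit false

namespace Claimed.Agent.R324.Core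

open Set Filter Topology MeasureTheory
open scoped ContDiff

/-- **The linear solution operator.**  For a forcing `S` which vanishes for `τ ≤ τs + Δ` there are a control `β`, supported in
`[τs, τs+Δ]`, and a solution `U`, zero for `τ ≤ τs`, of
      `∂_t U = L̃ U + S + Σ_i β_i(τ) Ac_i(t,y)`,      `‖U‖_𝒳 ≤ C ‖S‖_𝒴`. -/
theorem linear_solve (q : ℕ) (hq : Odd q) (hq6 : 10 ^ 6 ≤ q) (g : Bg) (hg : BgGood q g) :
    ∃ Γ₁ : ℝ, ∀ Γ : ℝ, Γ₁ ≤ Γ →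
    ∃ (η C Δ τbar : ℝ) (N : ℕ) (Ac : Fin N → Tri) (Cd : ℕ → ℝ),
      27 / 2 < η ∧ η < 139 / 10 ∧ 0 < Δ ∧ 0 ≤ C ∧ (∀ i j, Sm (Ac i j)) ∧
      ∀ τs : ℝ, τbar ≤ τs → ∀ (S : Tri) (R : ℝ), 0 ≤ R → (∀ j, Sm (S j)) →
        (∀ j, ∀ t ≤ tOf (τs + Δ), ∀ y ∈ Icc (-1 : ℝ) 1, S j (t, y) = 0) →
        YB q Γ η (tOf τs) R S →
        ∃ (U : Tri) (β : ℝ → EuclideanSpace ℝ (Fin N)),
          (∀ j, Sm (U j)) ∧ (∀ j, ∀ t ≤ tOf τs, ∀ y ∈ Icc (-1 : ℝ) 1, U j (t, y) = 0) ∧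
          ContDiff ℝ ∞ β ∧ (∀ τ, τ ≤ τs ∨ τs + Δ ≤ τ → β τ = 0) ∧
          (∀ l τ, ‖iteratedDeriv l β τ‖ ≤ Cd l * R) ∧
          (∀ j, ∀ t < 0, ∀ y ∈ Icc (-1 : ℝ) 1,
            dT (U j) (t, y) = Lt q g U j (t, y) + S j (t, y) + ∑ i, β (tauOf t) i * Ac i j (t, y)) ∧
          XB q g Γ (tOf τs) (C * R) U :=
  ld7_linear_solve q hq hq6 g hg

end Claimed.Agent.R324.Core
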