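/-
Row 324 (S0582), PDE core: interfaces of the modules NL (iteration), HI (regularity of the limit), CL (conclusion).
Blueprint: origin/helper232:docs/R324_blueprint.md, sections 7.5-7.7.      Port of R325/Core/Nonlin.lean.
-/
import Claimed.Agent.R324.Core.NonlinDefs
import Claimed.Agent.R324.Core.Linear
import Claimed.Agent.R324.Core.CL.Main
import Claimed.Agent.R324.Core.NL.Main
import Claimed.Agent.R324.Core.HI.Final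

set_option autoImplicit false

namespace Claimed.Agent.R324.Core

open Set Filter Topology MeasureTheory
open scoped ContDiff

/-- Module NL (7.5): the iteration converges in the base norm. -/
theorem iteration (q : ℕ) (hq : Odd q) (hq6 : 10 ^ 6 ≤ q) (g : Bg) (hg : BgGood q g) :
    ∃ Γ₂ : ℝ, ∀ Γ : ℝ, Γ₂ ≤ Γ →
    ∃ (Δ : ℝ) (N : ℕ) (Ac : Fin N → Tri), 0 < Δ ∧ (∀ i j, Sm (Ac i j)) ∧
      ∀ ε : ℝ, 0 < ε → ∀ τ₀ : ℝ, ∃ τs : ℝ, τ₀ ≤ τs ∧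
        ∃ (U : ℕ → Tri) (β : ℕ → ℝ → EuclideanSpace ℝ (Fin N)), Iter q g Γ ε τs Δ N Ac U β :=
  nl_iteration q hq hq6 g hg

/-- Module HI (7.6): the limit of the iterates is smooth and solves the nonlinear system for `τ > τs + Δ + 1`. -/
theorem regularity (q : ℕ) (hq : Odd q) (hq6 : 10 ^ 6 ≤ q) (g : Bg) (hg : BgGood q g) :
    ∃ Γ₃ : ℝ, ∀ Γ : ℝ, Γ₃ ≤ Γ → ∃ ε₀ : ℝ, 0 < ε₀ ∧ ∃ τ₁ : ℝ,
    ∀ (ε τs Δ : ℝ) (N : ℕ) (Ac : Fin N → Tri) (U : ℕ → Tri)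
      (β : ℕ → ℝ → EuclideanSpace ℝ (Fin N)), 0 < ε → ε ≤ ε₀ → τ₁ ≤ τs → 0 < Δ → (∀ i j, Sm (Ac i j)) →
      Iter q g Γ ε τs Δ N Ac U β →
      ∃ W : Tri, (∀ j, Sm (W j)) ∧ NLU q g (tOf (τs + Δ + 1)) W ∧ XB q g Γ (tOf (τs + Δ + 1)) ε W :=
  hi_regularity q hq hq6 g hg

/-- Module CL (7.7): a small smooth solution of the nonlinear system has bounded scalar curvature, and the curvature of the
`S²` fibre over the north pole blows up. -/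
theorem conclusion (q : ℕ) (hq : Odd q) (hq6 : 10 ^ 6 ≤ q) (g : Bg) (hg : BgGood q g) :
    ∃ Γ₄ : ℝ, ∀ Γ : ℝ, Γ₄ ≤ Γ → ∃ ε₁ : ℝ, 0 < ε₁ ∧ ∃ Λ₁ : ℝ, 0 < Λ₁ ∧
    ∀ (t₀ : ℝ) (U : Tri), t₀ ∈ Ico (-Λ₁) 0 → (∀ j, Sm (U j)) → NLU q g t₀ U → XB q g Γ t₀ ε₁ U →
      ScalBdd q t₀ 0 (mA q U) (mB q g U) (mC g U) ∧ CurvBlow t₀ 0 (mA q U) (mB q g U) (mC g U) :=
  cl_conclusion q hq hq6 g hg hg.cl

end Claimed.Agent.R324.Core
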