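/-
Row 324 (S0582), PDE core: assembly (blueprint origin/helper232:docs/R324_blueprint.md, section 7.8).
-/
import Claimed.Agent.R324.Core.Nonlin
import Claimed.Agent.R324.Core.Interfaces

set_option autoImplicit false

namespace Claimed.Agent.R324.Core

open Set Filter Topology MeasureTheory
open scoped ContDiff

theorem fin_tOf_mem {Λ₁ τ : ℝ} (hΛ : 0 < Λ₁) (hτ : -Real.log Λ₁ ≤ τ) : tOf τ ∈ Ico (-Λ₁) 0 := by
  unfold tOf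
  have h1 : Real.exp (-τ) ≤ Real.exp (Real.log Λ₁) := Real.exp_le_exp.2 (by linarith)
  rw [Real.exp_log hΛ] at h1
  have h2 := Real.exp_pos (-τ)
  constructor <;> linarith

/-- **the PDE core**: a gauged reduced Ricci flow with bounded scalar curvature and curvature blow up. -/
theorem pde_core (q : ℕ) (hq : Odd q) (hq6 : 10 ^ 6 ≤ q) :
    ∃ (t₀ : ℝ) (A B C W : ℝ × ℝ → ℝ), RedGF q t₀ 0 A B C W ∧ ScalBdd q t₀ 0 A B C ∧ CurvBlow t₀ 0 A B C := by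
  obtain ⟨g, hg⟩ := exists_bgGood q hq hq6
  obtain ⟨Γ₂, h2⟩ := iteration q hq hq6 g hg
  obtain ⟨Γ₃, h3⟩ := regularity q hq hq6 g hg
  obtain ⟨Γ₄, h4⟩ := conclusion q hq hq6 g hg
  set Γ : ℝ := max (max Γ₂ Γ₃) Γ₄ with hΓdef
  have hΓ2 : Γ₂ ≤ Γ := (le_max_left _ _).trans (le_max_left _ _)
  have hΓ3 : Γ₃ ≤ Γ := (le_max_right _ _).trans (le_max_left _ _)
  have hΓ4 : Γ₄ ≤ Γ := le_max_right _ _
  obtain ⟨Δ, N, Ac, hΔ, hAc, hit⟩ := h2 Γ hΓ2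
  obtain ⟨ε₀, hε₀, τ₁, hreg⟩ := h3 Γ hΓ3
  obtain ⟨ε₁, hε₁, Λ₁, hΛ₁, hcon⟩ := h4 Γ hΓ4
  set ε : ℝ := min ε₀ ε₁ with hεdef
  have hε : 0 < ε := lt_min hε₀ hε₁
  obtain ⟨τs, hτs, U, β, hIter⟩ := hit ε hε (max τ₁ (-Real.log Λ₁))
  have hτ1 : τ₁ ≤ τs := (le_max_left _ _).trans hτs
  have hτ2 : -Real.log Λ₁ ≤ τs := (le_max_right _ _).trans hτs
  obtain ⟨W, hW, hNL, hXB⟩ := hreg ε τs Δ N Ac U β hε (min_le_left _ _) hτ1 hΔ hAc hIter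
  have ht₀ : tOf (τs + Δ + 1) ∈ Ico (-Λ₁) 0 := fin_tOf_mem hΛ₁ (by linarith)
  obtain ⟨hS, hK⟩ := hcon _ W ht₀ hW hNL (hXB.mono hε.le (min_le_right _ _))
  have hq1 : 1 ≤ q := le_trans (by norm_num) hq6
  exact ⟨tOf (τs + Δ + 1), mA q W, mB q g W, mC g W, mW q g W,
    nlu_to_gf q hq1 g hg.sm W hW _ ht₀.2 hNL, hS, hK⟩

end Claimed.Agent.R324.Core
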